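import Vale.Agent.P261Z.T1.Defs
import Vale.Agent.P251.F.LTFinal

/-!
# P261, block T1: the interface with block D

`tw D j`: the twisted action of `G = Aut H` on `E_j = k[u_1, …, u_{n-1}]/m^{j+1}`;
`(tw D j).Wt w` is the `G`-module `E_j ω^w`; `FinG D`: the pro-systems `H^s(G; E_j ω^w)` have
bounded stable images, that is, `H^s(G; E_{2w}/p)` is finite.
-/

namespace Vale.Agent.P261Z.T1

open Vale.Agent.P251 Vale.Agent.P251.F Vale.Agent.P251.C

variable {p n : ℕ} [Fact p.Prime] {k : Type} [Field k]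

/-- the twisted action of `Aut H` on `E_j` -/
noncomputable def tw (D : LTD p n k) (j : ℕ) : TwAct D.GG (D.EJ j) :=
  (D.coPt j).twist D.GG (D.isCo j)

/-- the reduction `E_{j'} → E_j` as a morphism of twisted actions -/
noncomputable def twR (D : LTD p n k) {j j' : ℕ} (hj : j ≤ j') : TwAct.Hom (tw D j') (tw D j) :=
  (D.coPt j).twHom (D.coPt j') (D.redT hj) (EE.red k (n - 1) hj : D.EJ j' →+* D.EJ j)
    (D.redT_comp_inc hj) (D.map_redT_ser hj) (D.isCo j) (D.isCo j')
    (fun γ t => D.redT_smul hj γ t)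

theorem twR_r (D : LTD p n k) {j j' : ℕ} (hj : j ≤ j') :
    (twR D hj).r = (EE.red k (n - 1) hj : D.EJ j' →+* D.EJ j) := rfl

/-- `H^s(G; E_{2w}/p)` is finite for all `s` and `w`. -/
def FinG (D : LTD p n k) : Prop :=
  ∀ (w : ℤ) (s : ℕ), ProBd D.GG (fun j => (tw D j).Wt w) (fun hj => (twR D hj).map w) s

end Vale.Agent.P261Z.T1
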