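import Vale.Agent.P261Z.T1.Defs
import Vale.Agent.P261Z.D.Defs
import Vale.Agent.P251.F.GDescent

/-!
# P261, block T1: descent with bounds, for complexes of discrete `G`-modules

* `hmapBd_of_bd`, `proBd_of_PF`: from the vocabulary of block D;
* `HMapBd.transport`: transport along isomorphisms of modules;
* `descent_bd`: let `A' → A` be a map of cochain complexes of discrete `G`-modules, `A'` exact in
  positive degrees, all `A b` acyclic. If among `N + 1` homogeneous `s + 1`-cocycles with values in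
  `ker (A' 0 → A' 1)` two become cohomologous in `ker (A 0 → A 1)`, then among `N + 1` invariant
  `s + 1`-cocycles of `A'` two become cohomologous in the invariants of `A`.
-/

namespace Vale.Agent.P261Z.T1

open Vale.Agent.P251.C Vale.Agent.P251.F

section PF

variable {G : Type} [Group G] [TopologicalSpace G] {M M' : Type} [AddCommGroup M]
  [DistribMulAction G M] [AddCommGroup M'] [DistribMulAction G M']

theorem cb_iff_BB (s : ℕ) (F : (Fin (s + 1) → G) → M) : Cb G s F ↔ F ∈ D.BB G M s := by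
  cases s with
  | zero =>
    constructor
    · rintro ⟨Y, -, h, rfl⟩
      rw [h rfl]
      exact dd_zero
    · intro h
      exact ⟨0, IsCoch.zero, fun _ => rfl, dd_zero.trans (Eq.symm h)⟩
  | succ s =>
    constructor
    · rintro ⟨Y, hY, -, h⟩
      exact ⟨Y, hY, h⟩
    · rintro ⟨Y, hY, h⟩
      exact ⟨Y, hY, fun h => absurd h (Nat.succ_ne_zero s), h⟩

theorem hmapBd_of_bd {s N : ℕ} {u : M → M'} (hu : ∀ x y, u (x - y) = u x - u y)
    (h : D.Bd G s u N) : HMapBd G s N u := by
  obtain ⟨S, hS, h⟩ := h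
  intro F hF hd
  choose z hz hz' using fun i => h (F i) ⟨hF i, hd i⟩
  obtain ⟨a, b, hab, h1⟩ := Fintype.exists_ne_map_eq_of_card_lt (fun i => (⟨z i, hz i⟩ : S))
    (by simpa using Nat.lt_succ_of_le hS)
  refine ⟨a, b, hab, (cb_iff_BB s _).2 ?_⟩
  have h2 : z a = z b := congrArg Subtype.val h1
  have h3 := (D.BB G M' s).sub_mem (hz' a) (hz' b)
  rw [h2, sub_sub_sub_cancel_right] at h3
  have h4 : (fun x => u (F a x - F b x)) = u ∘ F a - u ∘ F b := funext fun x => hu _ _
  rwa [h4]

theorem proBd_of_PF {s : ℕ} {T : ℕ → Type} [∀ k, AddCommGroup (T k)]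
    [∀ k, DistribMulAction G (T k)] {r : ∀ {k k' : ℕ}, k ≤ k' → T k' → T k}
    (hr : ∀ (k k' : ℕ) (h : k ≤ k') x y, r h (x - y) = r h x - r h y) (h : D.PF G s T r) :
    ProBd G T r s := by
  obtain ⟨N, hN⟩ := h
  refine ⟨N, fun j => ?_⟩
  obtain ⟨j', hj, h1⟩ := hN j
  exact ⟨j', hj, hmapBd_of_bd (hr j j' hj) h1⟩

end PF

section Transport

variable {G : Type*} [Group G] [TopologicalSpace G] {M N M' N' : Type*} [AddCommGroup M]
  [AddCommGroup N] [AddCommGroup M'] [AddCommGroup N'] [DistribMulAction G M]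
  [DistribMulAction G N] [DistribMulAction G M'] [DistribMulAction G N']

theorem Cb.map {s : ℕ} {F : (Fin (s + 1) → G) → M} (h : Cb G s F) (b : M →+[G] N) :
    Cb G s (fun x => b (F x)) := by
  obtain ⟨Y, hY, h0, rfl⟩ := h
  refine ⟨b ∘ Y, hY.map b, fun hs => ?_, dd_mapG b Y⟩
  rw [h0 hs]
  funext x
  exact map_zero b

theorem HMapBd.transport (a : M →+[G] M') (ha : Function.Bijective a) (b : N →+[G] N')
    {u : M → N} {u' : M' → N'} (h : ∀ x, u' (a x) = b (u x)) {s n : ℕ}
    (hu : HMapBd G s n u) : HMapBd G s n u' := by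
  intro F hF hdF
  choose F' hF' hFF' using fun i => IsCoch.of_inj a ha.1 (hF i) (fun x => ha.2 _)
  obtain ⟨i, j, hij, h1⟩ := hu F' hF' (fun i => by
    funext x
    apply ha.1
    have h1 := congrFun (dd_mapG a (F' i)) x
    rw [show (fun x => a (F' i x)) = F i from funext (hFF' i), hdF] at h1
    exact h1.symm.trans (map_zero a).symm)
  refine ⟨i, j, hij, ?_⟩
  have h2 : (fun x => u' (F i x - F j x)) = fun x => b (u (F' i x - F' j x)) := by
    funext x
    rw [← h, map_sub, hFF', hFF']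
  rw [h2]
  exact h1.map b

/-- The bound in degree `0`, on invariant elements. -/
theorem HMapBd.zero {n : ℕ} {u : M → N} (hu : HMapBd G 0 n u) (z : Fin (n + 1) → M)
    (hz : ∀ i (g : G), g • z i = z i) : ∃ a b, a ≠ b ∧ u (z a - z b) = 0 := by
  obtain ⟨a, b, hab, Y, -, h0, h1⟩ := hu (fun i _ => z i)
    (fun i => ⟨IsLocallyConstant.const _, fun g _ => (hz i g).symm⟩) (fun i => by
      funext x
      simp [dd, Fin.sum_univ_succ])
  refine ⟨a, b, hab, ?_⟩
  rw [h0 rfl, dd_zero] at h1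
  exact (congrFun h1 fun _ => 1).symm

end Transport

section Descent

variable {G : Type*} [Group G] [TopologicalSpace G] [IsTopologicalGroup G]
  {A' A : ℕ → Type*} [∀ b, AddCommGroup (A' b)] [∀ b, AddCommGroup (A b)]
  [∀ b, DistribMulAction G (A' b)] [∀ b, DistribMulAction G (A b)]

/-- Abstract descent with bounds; `ι` is any index type. -/
theorem descent_bd [∀ b, DiscMod G (A' b)] {ι : Type*}
    (d' : ∀ b, A' b →+[G] A' (b + 1)) (d : ∀ b, A b →+[G] A (b + 1)) (φ : ∀ b, A' b →+[G] A b)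
    (hφ : ∀ b x, φ (b + 1) (d' b x) = d b (φ b x))
    (hdd : ∀ b x, d (b + 1) (d b x) = 0)
    (hex : ∀ b x, d' (b + 1) x = 0 → ∃ y, d' b y = x)
    (hG : ∀ a b, HZero G (A b) (a + 1))
    (s : ℕ)
    (hM : ∀ c : ι → (Fin (s + 2) → G) → A' 0, (∀ i, IsCoch G (c i)) → (∀ i, dd (c i) = 0) →
      (∀ i x, d' 0 (c i x) = 0) → ∃ i j, i ≠ j ∧
      ∃ m : (Fin (s + 1) → G) → A 0, IsCoch G m ∧ (∀ x, d 0 (m x) = 0) ∧
        ∀ x, φ 0 (c i x - c j x) = dd m x)
    (z : ι → A' (s + 1)) (hz : ∀ i (g : G), g • z i = z i) (hdz : ∀ i, d' (s + 1) (z i) = 0) :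
    ∃ i j, i ≠ j ∧ ∃ y : A s, (∀ g : G, g • y = y) ∧ d s y = φ (s + 1) (z i - z j) := by
  have Q : ∀ b a : ℕ, a + b = s → ∀ c : ι → (Fin (a + 2) → G) → A' b, (∀ i, IsCoch G (c i)) →
      (∀ i, dd (c i) = 0) → (∀ i x, d' b (c i x) = 0) → ∃ i j, i ≠ j ∧
        ∃ m : (Fin (a + 1) → G) → A b, IsCoch G m ∧
        (∀ x, d b (m x) = 0) ∧ ∀ x, φ b (c i x - c j x) = dd m x := by
    intro b
    induction b with
    | zero =>
      intro a ha
      obtain rfl : a = s := ha
      exact hM
    | succ b ih =>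
      intro a ha c hc hdc hd
      choose y hy hyc using fun i => coch_lift (d' b) (d' (b + 1)) (hex b) (hc i) (hd i)
      have hyc' : ∀ i, (fun x => d' b (y i x)) = c i := fun i => funext (hyc i)
      obtain ⟨i, j, hij, m, hm, hdm, hφm⟩ := ih (a + 1) (by omega) (fun i => dd (y i))
        (fun i => (hy i).dd) (fun i => dd_dd (y i)) (by
        intro i x
        have h1 := congrFun (dd_mapG (d' b) (y i)) x
        rw [hyc', hdc] at h1
        exact h1.symm)
      obtain ⟨w, hw, hdw⟩ := hG a b ((fun x => φ b ((y i - y j) x)) - m)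
        ((((hy i).sub (hy j)).map (φ b)).sub hm) (by
        rw [dd_sub, dd_mapG, dd_sub]
        funext x
        simp only [Pi.sub_apply, hφm x, sub_self, Pi.zero_apply])
      refine ⟨i, j, hij, fun x => d b (w x), hw.map (d b), fun x => hdd b _, ?_⟩
      intro x
      have h1 := congrFun (dd_mapG (d b) w) x
      refine Eq.trans ?_ h1.symm
      rw [hdw, ← hyc, ← hyc, ← map_sub (d' b), hφ, Pi.sub_apply, map_sub (d b), hdm, sub_zero]
      rfl
  choose y hy hyz using fun i => coch_lift (n := 0) (d' s) (d' (s + 1)) (hex s)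
    (F := fun _ => z i) ⟨IsLocallyConstant.const (z i), fun g _ => (hz i g).symm⟩
    (fun _ => hdz i)
  have hyz' : ∀ i, (fun x => d' s (y i x)) = fun _ => z i := fun i => funext (hyz i)
  obtain ⟨i, j, hij, m, hm, hdm, hφm⟩ := Q s 0 (by omega) (fun i => dd (y i))
    (fun i => (hy i).dd) (fun i => dd_dd (y i)) (by
    intro i x
    have h1 := congrFun (dd_mapG (d' s) (y i)) x
    rw [hyz'] at h1
    refine h1.symm.trans ?_
    simp [dd, Fin.sum_univ_succ])
  have h0 : dd ((fun x => φ s ((y i - y j) x)) - m) = 0 := by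
    rw [dd_sub, dd_mapG, dd_sub]
    funext x
    simp only [Pi.sub_apply, hφm x, sub_self, Pi.zero_apply]
  have h1 : ∀ g h : G, φ s ((y i - y j) fun _ => g) - m (fun _ => g) =
      φ s ((y i - y j) fun _ => h) - m fun _ => h := by
    intro g h
    have := congrFun h0 (Fin.cons h (fun _ => g))
    rw [dd_cons, dd_one] at this
    have e : (Fin.cons h (fun i : Fin 0 => i.elim0) : Fin 1 → G) = fun _ => h := by
      funext j
      fin_cases j
      rfl
    rw [e] at this
    exact (sub_eq_zero.1 this)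
  refine ⟨i, j, hij, φ s ((y i - y j) fun _ => 1) - m fun _ => 1, fun g => ?_, ?_⟩
  · have h2 := ((((hy i).sub (hy j)).map (φ s)).sub hm).equi g (fun _ => 1)
    have h3 : φ s ((y i - y j) fun _ => g * 1) - m (fun _ => g * 1) =
        g • (φ s ((y i - y j) fun _ => 1) - m fun _ => 1) := h2
    rw [← h3, ← h1 (g * 1) 1]
  · rw [map_sub, hdm, sub_zero, ← hφ, Pi.sub_apply, map_sub (d' s), hyz, hyz]

end Descent

end Vale.Agent.P261Z.T1
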