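import Vale.Agent.P251.C.Defs

/-!
# P261, block T1: definitions (light layer, only `P251/C/Defs`)

* `Cb G s Y'`: the homogeneous `s`-cochain `Y'` is a coboundary (zero if `s = 0`);
* `HMapBd G s N u`: the image of `H^s(G; M) → H^s(G; M')` has at most `N` elements;
* `ProBd G M f s`: the pro-system `H^s(G; M j)` has bounded stable images (equivalently, it
  satisfies the Mittag-Leffler condition with a finite limit);
* `PCompl p A`: the abelian group `A` is derived `p`-complete;
* `FG p A`: `A` has exactly one structure of a `ℤ_[p]`-module, and it is finitely generated.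
-/

namespace Vale.Agent.P261Z.T1

open Vale.Agent.P251.C

/-- The homogeneous `s`-cochain `F` is a coboundary (for `s = 0`: it is zero). -/
def Cb (G : Type*) {M : Type*} [Group G] [TopologicalSpace G] [AddCommGroup M]
    [DistribMulAction G M] (s : ℕ) (F : (Fin (s + 1) → G) → M) : Prop :=
  ∃ Y : (Fin s → G) → M, IsCoch G Y ∧ (s = 0 → Y = 0) ∧ dd Y = F

/-- The image of `H^s(G; M) → H^s(G; M')` has at most `N` elements: among `N + 1` cocycles two
have cohomologous images. -/
def HMapBd (G : Type*) {M M' : Type*} [Group G] [TopologicalSpace G] [AddCommGroup M]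
    [DistribMulAction G M] [AddCommGroup M'] [DistribMulAction G M'] (s N : ℕ) (u : M → M') :
    Prop :=
  ∀ F : Fin (N + 1) → (Fin (s + 1) → G) → M, (∀ i, IsCoch G (F i)) → (∀ i, dd (F i) = 0) →
    ∃ a b, a ≠ b ∧ Cb G s (fun x => u (F a x - F b x))

/-- The pro-system `j ↦ H^s(G; M j)` has bounded stable images. -/
def ProBd (G : Type*) [Group G] [TopologicalSpace G] (M : ℕ → Type*) [∀ j, AddCommGroup (M j)]
    [∀ j, DistribMulAction G (M j)] (f : ∀ {j j' : ℕ}, j ≤ j' → M j' → M j) (s : ℕ) : Prop :=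
  ∃ N : ℕ, ∀ j, ∃ j', ∃ hj : j ≤ j', HMapBd G s N (f hj)

/-- `A` is derived `p`-complete: `Hom(ℤ[1/p], A) = 0 = Ext(ℤ[1/p], A)`. -/
def PCompl (p : ℕ) (A : Type*) [AddCommGroup A] : Prop :=
  ∀ a : ℕ → A, ∃! b : ℕ → A, ∀ k, b k = a k + (p : ℤ) • b (k + 1)

/-- `A / p` is finite. -/
def FinModP (p : ℕ) (A : Type*) [AddCommGroup A] : Prop :=
  ∃ S : Set A, S.Finite ∧ ∀ x : A, ∃ a ∈ S, ∃ y : A, x = a + (p : ℤ) • y

/-- The abelian group `A` has exactly one structure of a `ℤ_[p]`-module, and this module is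
finitely generated. -/
def FG (p : ℕ) [Fact p.Prime] (A : Type*) [AddCommGroup A] : Prop :=
  ∃ m : Module ℤ_[p] A, (∀ m' : Module ℤ_[p] A, m' = m) ∧ @Module.Finite ℤ_[p] A _ _ m

end Vale.Agent.P261Z.T1
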