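import Vale.Agent.P251.S.ExactCouple
import Mathlib.Data.Set.Finite.Lattice
import Mathlib.Data.Set.Finite.Basic
import Mathlib.GroupTheory.QuotientGroup.Defs
import Mathlib.Data.Fintype.Pigeonhole
import Mathlib.Data.Set.Card

/-!
# P261, block T1: finiteness in exact couples

* `FinMod S B`: the set `S` meets only finitely many cosets of the subgroup `B`;
* `E2Fin C s n`: the group `E_2^{s, n}` of the couple `C` is finite;
* `finite_D0`: if `E_2^{s, n}` is finite for all `s` and `D^{s+1}_n → D^s_n` is zero for one `s`,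
  then `D^0_n` is finite.
-/

namespace Vale.Agent.P261Z.T1

open Vale.Agent.P251.S

section FinMod

variable {A : Type*} [AddCommGroup A]

/-- `S` meets only finitely many cosets of `B`. -/
def FinMod (S : Set A) (B : AddSubgroup A) : Prop :=
  ∃ R : Set A, R.Finite ∧ R ⊆ S ∧ ∀ x ∈ S, ∃ r ∈ R, x - r ∈ B

theorem finMod_iff {S : Set A} {B : AddSubgroup A} :
    FinMod S B ↔ ((QuotientAddGroup.mk : A → A ⧸ B) '' S).Finite := by
  constructor
  · rintro ⟨R, hR, -, h⟩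
    refine (hR.image (QuotientAddGroup.mk : A → A ⧸ B)).subset ?_
    rintro _ ⟨x, hx, rfl⟩
    obtain ⟨r, hr, hxr⟩ := h x hx
    exact ⟨r, hr, (QuotientAddGroup.eq_iff_sub_mem.2 hxr).symm⟩
  · intro h
    obtain ⟨R, hRS, hR, hR'⟩ := h.exists_subset_finite_image_eq subset_rfl
    refine ⟨R, hR, hRS, fun x hx => ?_⟩
    have h1 : (QuotientAddGroup.mk x : A ⧸ B) ∈ (QuotientAddGroup.mk : A → A ⧸ B) '' R := by
      rw [hR']
      exact ⟨x, hx, rfl⟩
    obtain ⟨r, hr, hrx⟩ := h1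
    exact ⟨r, hr, QuotientAddGroup.eq_iff_sub_mem.1 hrx.symm⟩

theorem finMod_of_seq {S : Set A} {B : AddSubgroup A}
    (h : ∀ z : ℕ → A, (∀ i, z i ∈ S) → ∃ a b, a ≠ b ∧ z a - z b ∈ B) : FinMod S B := by
  rw [finMod_iff]
  by_contra hinf
  let e := Set.Infinite.natEmbedding _ hinf
  choose z hz hze using fun i => (e i).2
  obtain ⟨a, b, hab, h1⟩ := h z hz
  refine hab (e.injective (Subtype.ext ?_))
  rw [← hze a, ← hze b]
  exact QuotientAddGroup.eq_iff_sub_mem.2 h1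

theorem finMod_of_pigeon {S : Set A} {B : AddSubgroup A} (N : ℕ)
    (h : ∀ z : Fin (N + 1) → A, (∀ i, z i ∈ S) → ∃ a b, a ≠ b ∧ z a - z b ∈ B) : FinMod S B := by
  refine finMod_of_seq fun z hz => ?_
  obtain ⟨a, b, hab, h1⟩ := h (fun i => z i) (fun i => hz i)
  exact ⟨a, b, fun e => hab (Fin.ext e), h1⟩

theorem FinMod.pigeon {S : Set A} {B : AddSubgroup A} (h : FinMod S B) : ∃ N : ℕ,
    ∀ z : Fin (N + 1) → A, (∀ i, z i ∈ S) → ∃ a b, a ≠ b ∧ z a - z b ∈ B := by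
  obtain ⟨R, hR, -, h⟩ := h
  have := hR.fintype
  refine ⟨Fintype.card R, fun z hz => ?_⟩
  choose r hr hr' using fun i => h (z i) (hz i)
  obtain ⟨a, b, hab, h1⟩ := Fintype.exists_ne_map_eq_of_card_lt (fun i => (⟨r i, hr i⟩ : R))
    (by simp)
  refine ⟨a, b, hab, ?_⟩
  have h2 : r a = r b := congrArg Subtype.val h1
  have h3 := B.sub_mem (hr' a) (hr' b)
  rwa [h2, sub_sub_sub_cancel_right] at h3

theorem FinMod.finite {S : Set A} (h : FinMod S ⊥) : S.Finite := by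
  obtain ⟨R, hR, -, h⟩ := h
  refine hR.subset fun x hx => ?_
  obtain ⟨r, hr, h1⟩ := h x hx
  rw [AddSubgroup.mem_bot, sub_eq_zero] at h1
  rwa [h1]

end FinMod

universe u v

variable (C : Couple.{u, v})

/-- The coboundaries in `E^s_n`. -/
def bdE : ∀ (s : ℕ) (n : ℤ), AddSubgroup (C.E s n)
  | 0, _ => ⊥
  | s + 1, n => (C.d s (n + 1) n rfl).range

/-- `E_2^{s, n}` is finite. -/
def E2Fin (s : ℕ) (n : ℤ) : Prop := FinMod {z : C.E s n | C.IsCocycle z} (bdE C s n)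

namespace Cp

/-- the map `D^s_n → D^0_n` -/
def dn (n : ℤ) : ∀ s : ℕ, C.D s n →+ C.D 0 n
  | 0 => AddMonoidHom.id _
  | s + 1 => (dn n s).comp (C.i s n)

theorem exists_of_bd (n : ℤ) (s : ℕ) (y : C.D s n) (hy : C.j s n y ∈ bdE C s n) :
    ∃ y' : C.D (s + 1) n, dn C n (s + 1) y' = dn C n s y := by
  cases s with
  | zero =>
    obtain ⟨y', hy'⟩ := C.exact_j 0 n y hy
    exact ⟨y', hy'⟩
  | succ s =>
    obtain ⟨z, hz⟩ := hy
    obtain ⟨y', hy'⟩ := C.exact_j (s + 1) n (y - C.k s (n + 1) n rfl z) (by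
      rw [map_sub, sub_eq_zero]
      exact hz.symm)
    refine ⟨y', ?_⟩
    change dn C n s (C.i s n (C.i (s + 1) n y')) = dn C n s (C.i s n y)
    rw [hy', map_sub, C.i_k, sub_zero]

theorem step (n : ℤ) (s : ℕ) (h : E2Fin C s n) (h1 : (Set.range (dn C n (s + 1))).Finite) :
    (Set.range (dn C n s)).Finite := by
  have h2 : FinMod (Set.range (C.j s n)) (bdE C s n) := by
    rw [finMod_iff]
    refine (finMod_iff.1 h).subset (Set.image_mono ?_)
    rintro _ ⟨y, rfl⟩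
    exact C.isCocycle_j y
  obtain ⟨R, hR, hRS, hR'⟩ := h2
  choose y hy using fun r : R => hRS r.2
  have := hR.to_subtype
  refine (Set.finite_iUnion fun r : R => h1.image (fun x => dn C n s (y r) + x)).subset ?_
  rintro _ ⟨x, rfl⟩
  obtain ⟨r, hr, hxr⟩ := hR' (C.j s n x) ⟨x, rfl⟩
  obtain ⟨y', hy'⟩ := exists_of_bd C n s (x - y ⟨r, hr⟩) (by rwa [map_sub, hy])
  refine Set.mem_iUnion.2 ⟨⟨r, hr⟩, _, ⟨y', rfl⟩, ?_⟩
  change dn C n s (y ⟨r, hr⟩) + dn C n (s + 1) y' = _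
  rw [hy', map_sub, add_sub_cancel]

end Cp

/-- If `E_2^{s, n}` is finite for all `s ≤ s₁` and `D^{s₁+1}_n → D^{s₁}_n` is zero, then `D^0_n`
is finite. -/
theorem finite_D0 (n : ℤ) (s₁ : ℕ) (h : ∀ s, s ≤ s₁ → E2Fin C s n)
    (hi : ∀ y : C.D (s₁ + 1) n, C.i s₁ n y = 0) : Finite (C.D 0 n) := by
  have h1 : ∀ r s, s + r = s₁ + 1 → (Set.range (Cp.dn C n s)).Finite := by
    intro r
    induction r with
    | zero =>
      intro s hs
      obtain rfl : s = s₁ + 1 := hs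
      refine (Set.finite_singleton 0).subset ?_
      rintro _ ⟨y, rfl⟩
      change Cp.dn C n s₁ (C.i s₁ n y) = 0
      rw [hi, map_zero]
    | succ r ih =>
      intro s hs
      exact Cp.step C n s (h s (by omega)) (ih (s + 1) (by omega))
  have h2 := h1 (s₁ + 1) 0 (by omega)
  exact Set.finite_univ_iff.1 (h2.subset fun x _ => ⟨x, rfl⟩)

end Vale.Agent.P261Z.T1
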