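import Vale.Agent.P261Z.T1.Couple
import Vale.Agent.P251.S.LimComplex

/-!
# P261, block T1: the limit of a tower of complexes with bounded stable images

* `TBd T s`: the pro-system `j ↦ H^s(C_j)` has bounded stable images;
* `lim_fin`: if the transition maps are onto and `TBd T s` holds for all `s`, then the cohomology
  of the limit complex is finite.
-/

namespace Vale.Agent.P261Z.T1

open Vale.Agent.P251.S

universe u

variable (T : TowerCx.{u})

/-- The coboundaries in `C_j^s`. -/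
def bdT : ∀ (s j : ℕ), AddSubgroup (T.C s j)
  | 0, _ => ⊥
  | s + 1, j => (T.d s j).range

/-- The pro-system `j ↦ H^s(C_j)` has bounded stable images. -/
def TBd (s : ℕ) : Prop :=
  ∃ N : ℕ, ∀ j, ∃ j', ∃ h : j ≤ j', ∀ z : Fin (N + 1) → T.C s j', (∀ i, T.d s j' (z i) = 0) →
    ∃ a b, a ≠ b ∧ T.res s h (z a - z b) ∈ bdT T s j

/-- The differential of the limit complex. -/
def limD (s : ℕ) : T.lim s →+ T.lim (s + 1) where
  toFun x := ⟨fun j => T.d s j (x.1 j), fun j => by rw [← T.d_r, x.2 j]⟩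
  map_zero' := Subtype.ext (funext fun j => map_zero (T.d s j))
  map_add' x y := Subtype.ext (funext fun j => map_add (T.d s j) (x.1 j) (y.1 j))

/-- The coboundaries of the limit complex. -/
def limB : ∀ s : ℕ, AddSubgroup (T.lim s)
  | 0 => ⊥
  | s + 1 => (limD T s).range

namespace Tw

theorem res_surj {s : ℕ} (hsurj : ∀ j, Function.Surjective (T.r s j)) {a b : ℕ} (h : a ≤ b) :
    Function.Surjective (T.res s h) := by
  induction b, h using Nat.le_induction with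
  | base => exact fun x => ⟨x, T.res_self s a x⟩
  | succ b h ih =>
    intro x
    obtain ⟨y, rfl⟩ := ih x
    obtain ⟨z, rfl⟩ := hsurj b y
    exact ⟨z, T.res_succ s h z⟩

theorem res_mem_bd {s a b : ℕ} (h : a ≤ b) {x : T.C s b} (hx : x ∈ bdT T s b) :
    T.res s h x ∈ bdT T s a := by
  cases s with
  | zero =>
    have h1 : x = 0 := hx
    rw [h1, map_zero]
    exact zero_mem _
  | succ s =>
    obtain ⟨y, rfl⟩ := hx
    exact ⟨T.res s h y, T.d_res s h y⟩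

theorem lift_bd (hsurj : ∀ s j, Function.Surjective (T.r s j)) {s a b : ℕ} (h : a ≤ b)
    {x : T.C s a} (hx : x ∈ bdT T s a) : ∃ y : T.C s b, T.d s b y = 0 ∧ T.res s h y = x := by
  cases s with
  | zero =>
    have h1 : x = 0 := hx
    exact ⟨0, map_zero _, by rw [h1, map_zero]⟩
  | succ s =>
    obtain ⟨y, rfl⟩ := hx
    obtain ⟨y', rfl⟩ := res_surj T (hsurj s) h y
    exact ⟨T.d s b y', T.d_d _ _ _, (T.d_res s h y').symm⟩

/-- The Mittag-Leffler condition for the cocycles. -/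
theorem ml (hsurj : ∀ s j, Function.Surjective (T.r s j)) {s : ℕ} (hb : TBd T s) (j : ℕ) :
    ∃ j₀, ∃ h₀ : j ≤ j₀, ∀ j' (h' : j₀ ≤ j') (z : T.C s j₀), T.d s j₀ z = 0 →
      ∃ z' : T.C s j', T.d s j' z' = 0 ∧ T.res s (h₀.trans h') z' = T.res s h₀ z := by
  classical
  obtain ⟨N, hN⟩ := hb
  obtain ⟨j₁, h₁, hN⟩ := hN j
  let I : ℕ → Set (T.C s j ⧸ bdT T s j) := fun j' =>
    {q | ∃ h : j ≤ j', ∃ z : T.C s j', T.d s j' z = 0 ∧ QuotientAddGroup.mk (T.res s h z) = q}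
  have hanti : ∀ a b, j ≤ a → a ≤ b → I b ⊆ I a := by
    rintro a b ha hab _ ⟨h, z, hz, rfl⟩
    exact ⟨ha, T.res s hab z, by rw [T.d_res, hz, map_zero], by rw [T.res_res]⟩
  have hfin : (I j₁).Finite := by
    have h2 : FinMod {x | ∃ z : T.C s j₁, T.d s j₁ z = 0 ∧ T.res s h₁ z = x} (bdT T s j) := by
      refine finMod_of_pigeon N fun x hx => ?_
      choose z hz hzx using hx
      obtain ⟨a, b, hab, h3⟩ := hN z hz
      exact ⟨a, b, hab, by rwa [map_sub, hzx, hzx] at h3⟩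
    refine (finMod_iff.1 h2).subset ?_
    rintro _ ⟨h, z, hz, rfl⟩
    exact ⟨_, ⟨z, hz, rfl⟩, rfl⟩
  have hex : ∃ m, ∃ a, j₁ ≤ a ∧ (I a).ncard = m := ⟨_, j₁, le_rfl, rfl⟩
  obtain ⟨j₀, hj₀, hm⟩ := Nat.find_spec hex
  refine ⟨j₀, h₁.trans hj₀, fun j' h' z hz => ?_⟩
  have h4 : I j' = I j₀ := by
    refine Set.eq_of_subset_of_ncard_le (hanti _ _ (h₁.trans hj₀) h') ?_
      (hfin.subset (hanti _ _ h₁ hj₀))
    rw [hm]
    exact Nat.find_min' hex ⟨j', hj₀.trans h', rfl⟩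
  have h5 : (QuotientAddGroup.mk (T.res s (h₁.trans hj₀) z) : T.C s j ⧸ bdT T s j) ∈ I j' := by
    rw [h4]
    exact ⟨h₁.trans hj₀, z, hz, rfl⟩
  obtain ⟨h, z', hz', h6⟩ := h5
  obtain ⟨y, hy, hy'⟩ := lift_bd T hsurj h (QuotientAddGroup.eq_iff_sub_mem.1 h6)
  refine ⟨z' - y, by rw [map_sub, hz', hy, sub_zero], ?_⟩
  rw [map_sub, hy']
  abel

/-- A compatible family of coboundaries is a coboundary of the limit complex. -/
theorem mem_limB (hsurj : ∀ s j, Function.Surjective (T.r s j)) (hb : ∀ s, TBd T s) (s : ℕ)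
    (x : T.lim s) (hx : ∀ j, x.1 j ∈ bdT T s j) : x ∈ limB T s := by
  cases s with
  | zero => exact Subtype.ext (funext fun j => hx j)
  | succ s =>
    have hS : ∀ {a b : ℕ} (h : a ≤ b) (y : T.C s b), T.d s b y = x.1 b →
        T.d s a (T.res s h y) = x.1 a := fun h y hy => by
      rw [T.d_res, hy, T.res_eq_of_mem_lim x.2]
    let E : ∀ j, Set (T.C s j) := fun j =>
      {y | ∀ j' (h : j ≤ j'), ∃ y' : T.C s j', T.d s j' y' = x.1 j' ∧ T.res s h y' = y}
    have hA : ∀ j, ∃ j₀, ∃ h₀ : j ≤ j₀, ∀ y : T.C s j₀, T.d s j₀ y = x.1 j₀ →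
        T.res s h₀ y ∈ E j := by
      intro j
      obtain ⟨j₀, h₀, h⟩ := ml T hsurj (hb s) j
      refine ⟨j₀, h₀, fun y hy j' hj' => ?_⟩
      rcases le_total j' j₀ with h1 | h1
      · exact ⟨T.res s h1 y, hS h1 y hy, T.res_res s hj' h1 y⟩
      · obtain ⟨y', hy'⟩ := hx j'
        obtain ⟨z', hz', h2⟩ := h j' h1 (T.res s h1 y' - y) (by
          rw [map_sub, hS h1 y' hy', hy, sub_self])
        refine ⟨y' - z', by rw [map_sub, hy', hz', sub_zero], ?_⟩
        rw [map_sub, h2, map_sub, T.res_res]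
        abel
    have hB : ∀ j (y : E j), ∃ y' : E (j + 1), T.r s j y'.1 = y.1 := by
      intro j y
      obtain ⟨j₀, h₀, h⟩ := hA (j + 1)
      obtain ⟨y', hy', h1⟩ := y.2 j₀ (Nat.le_of_succ_le h₀)
      exact ⟨⟨T.res s h₀ y', h y' hy'⟩, by rw [T.r_res, h1]⟩
    choose f hf using hB
    obtain ⟨j₀, h₀, h⟩ := hA 0
    obtain ⟨y₀, hy₀⟩ := hx j₀
    let y : ∀ j, E j := fun j => Nat.rec (motive := fun j => E j) ⟨_, h y₀ hy₀⟩ f j
    refine ⟨⟨fun j => (y j).1, fun j => hf j (y j)⟩, Subtype.ext (funext fun j => ?_)⟩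
    obtain ⟨y', hy', h1⟩ := (y j).2 j le_rfl
    rw [T.res_self] at h1
    change T.d s j (y j).1 = x.1 j
    rw [← h1, hy']

end Tw

/-- The cohomology of the limit complex is finite. -/
theorem lim_fin (hsurj : ∀ s j, Function.Surjective (T.r s j)) (hb : ∀ s, TBd T s) (s : ℕ) :
    FinMod {x : T.lim s | limD T s x = 0} (limB T s) := by
  obtain ⟨N, hN⟩ := hb s
  refine finMod_of_pigeon N fun z hz => ?_
  have h1 : ∀ j, ∃ c : Fin (N + 1) × Fin (N + 1), c.1 ≠ c.2 ∧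
      (z c.1 - z c.2).1 j ∈ bdT T s j := by
    intro j
    obtain ⟨j', h, h2⟩ := hN j
    obtain ⟨a, b, hab, h3⟩ := h2 (fun i => (z i).1 j')
      (fun i => congrFun (congrArg Subtype.val (hz i)) j')
    refine ⟨(a, b), hab, ?_⟩
    rw [← T.res_eq_of_mem_lim (z a - z b).2 h]
    exact h3
  choose c hc hc' using h1
  obtain ⟨e, he⟩ := Finite.exists_infinite_fiber c
  have h4 : ∀ j, ∃ j', j ≤ j' ∧ c j' = e := by
    intro j
    obtain ⟨j', hj', h5⟩ := (Set.infinite_coe_iff.1 he).exists_gt j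
    exact ⟨j', h5.le, hj'⟩
  obtain ⟨j₀, -, h₀⟩ := h4 0
  refine ⟨e.1, e.2, h₀ ▸ hc j₀, Tw.mem_limB T hsurj hb s _ fun j => ?_⟩
  obtain ⟨j', h, h5⟩ := h4 j
  rw [← T.res_eq_of_mem_lim (z e.1 - z e.2).2 h]
  exact Tw.res_mem_bd T h (h5 ▸ hc' j')

end Vale.Agent.P261Z.T1
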