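import Vale.Agent.P261Z.T1.Desc
import Vale.Agent.P261Z.T1.DefsG
import Vale.Agent.P261Z.T1.Tower
import Vale.Agent.P251.C.Main

/-!
# P261, block T1: from the cohomology of `G` to the towers `towerN p n w`

* `tbd_of_proBd`: bounded stable images for `H^s(G; Prim (T j) w)` give bounded stable images for
  the tower `towerN p n w`;
* `tbd_of_finG`: the same from `FinG D`;
* `proZero_of_not_dvd`: the vanishing line for `p` odd, `(p - 1) ∤ n`.
-/

namespace Vale.Agent.P261Z.T1

open Vale.Agent.P251 Vale.Agent.P251.F Vale.Agent.P251.C Vale.Agent.P251.S LawRing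

namespace DN

section Weight

variable {G : Type*} [Group G] [TopologicalSpace G] [IsTopologicalGroup G] [CompactSpace G]
variable {T' T : Type} [CommRing T'] [CommRing T] [LawRing T'] [LawRing T]
  [MulSemiringAction G T'] [MulSemiringAction G T] [LawAction G T'] [LawAction G T]
  {φ : T' →+* T}

theorem weight_bd [DiscMod G T'] [Framed T'] (hφ : IsLawHom φ)
    (hφG : ∀ (γ : G) (t : T'), φ (γ • t) = γ • φ t)
    (hT : ∀ a, HZero G T (a + 1)) (w : ℤ) (s N : ℕ)
    (hM : HMapBd G (s + 1) N (primMap hφ hφG w))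
    (z : Fin (N + 1) → Cob T' (s + 1)) (hz : ∀ i (γ : G), γ • z i = z i)
    (hw : ∀ i, Cob.IsWt w (z i)) (hdz : ∀ i, Cob.d (s + 1) (z i) = 0) :
    ∃ i j, i ≠ j ∧ ∃ y : Cob T s, (∀ γ : G, γ • y = y) ∧ Cob.IsWt w y ∧
      Cob.d s y = Cob.mapRing φ (s + 1) (z i - z j) := by
  obtain ⟨i, j, hij, y, hy, hdy⟩ := descent_bd (G := G) (A' := fun b => Cob.wt T' b w)
    (A := fun b => Cob.wt T b w) (fun b => wtD G T' b w) (fun b => wtD G T b w)
    (fun b => wtMap hφ hφG b w) (fun b x => Subtype.ext (Cob.mapRing_d hφ x.1))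
    (fun b x => Subtype.ext (Cob.d_d x.1))
    (fun b x hx => ⟨⟨Cob.ctr T' b x.1, Cob.IsWt.ctr x.2⟩,
      Subtype.ext (Cob.exact_of_framed (congrArg Subtype.val hx))⟩)
    (fun a b => hzero_wt (hT a) w) s
    (fun c hc hdc hd => by
      let P : Prim T' w →+[G] Cob.wt T' 0 w :=
        { toFun := fun x => x.1
          map_smul' := fun _ _ => rfl
          map_zero' := rfl
          map_add' := fun _ _ => rfl }
      choose c' hc' hcc' using fun i => IsCoch.of_inj P Subtype.val_injective (hc i)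
        (fun x => ⟨⟨c i x, congrArg Subtype.val (hd i x)⟩, rfl⟩)
      obtain ⟨i, j, hij, Y, hY, -, hdY⟩ := hM c' hc' (fun i => by
        funext x
        apply Subtype.val_injective
        have h1 := congrFun (dd_mapG P (c' i)) x
        rw [show (fun x => P (c' i x)) = c i from funext (hcc' i), hdc] at h1
        exact h1.symm)
      refine ⟨i, j, hij, fun x => (Y x).1, ⟨hY.lc.comp Subtype.val, fun g x => ?_⟩, fun x => ?_,
        fun x => ?_⟩
      · exact congrArg Subtype.val (hY.equi g x)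
      · exact Subtype.ext (Y x).2
      · let Q : Prim T w →+ Cob.wt T 0 w := (Prim T w).subtype
        have h1 := congrFun (dd_map Q Y) x
        refine Eq.trans ?_ h1.symm
        change _ = (dd Y x).1
        rw [hdY, ← hcc' i x, ← hcc' j x]
        rfl)
    (fun i => ⟨z i, hw i⟩) (fun i γ => Subtype.ext (hz i γ)) (fun i => Subtype.ext (hdz i))
  exact ⟨i, j, hij, y.1, fun γ => congrArg Subtype.val (hy γ), y.2, congrArg Subtype.val hdy⟩

end Weight

section Basis

variable {G : Type*} [Group G] {T N I : Type} [CommRing T] [LawRing T] [MulSemiringAction G T]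
  [CommRing N] [LawRing N] [Fintype I] {ι : N →+* T} {b : I → T} {i₀ : I}

omit [LawRing N] in
theorem map_eq_sum [DecidableEq I] (hb : InvBasis G ι b i₀) {s : ℕ} (x : Cob N s) :
    Cob.mapRing ι s x =
      ∑ i, MvPolynomial.C (b i) * Cob.mapRing ι s (if i = i₀ then x else 0) := by
  rw [Finset.sum_eq_single i₀]
  · rw [if_pos rfl, hb.one, MvPolynomial.C_1, one_mul]
  · intro i _ hi
    rw [if_neg hi, map_zero, mul_zero]
  · intro hi
    exact absurd (Finset.mem_univ i₀) hi

omit [LawRing N] in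
theorem map_eq_zero (hb : InvBasis G ι b i₀) {s : ℕ} (x : Cob N s)
    (hx : Cob.mapRing ι s x = 0) : x = 0 := by
  classical
  have h1 := hb.uniq_cob (fun i => if i = i₀ then x else 0) (fun _ => 0) (by
    rw [← map_eq_sum hb, hx]
    simp)
  have h2 := congrFun h1 i₀
  rwa [if_pos rfl] at h2

theorem retract (hι : IsLawHom ι) (hb : InvBasis G ι b i₀) {s : ℕ} {w : ℤ} (x : Cob N (s + 1))
    (hw : Cob.IsWt w x) (y : Cob T s) (hy : ∀ γ : G, γ • y = y)
    (hdy : Cob.d s y = Cob.mapRing ι (s + 1) x) :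
    ∃ y' : Cob N s, Cob.IsWt w y' ∧ Cob.d s y' = x := by
  classical
  obtain ⟨c, rfl⟩ := hb.exist_cob y hy
  have h1 : Cob.d s (∑ i, MvPolynomial.C (b i) * Cob.mapRing ι s (c i)) =
      ∑ i, MvPolynomial.C (b i) * Cob.mapRing ι (s + 1) (Cob.d s (c i)) := by
    rw [map_sum]
    refine Finset.sum_congr rfl fun i _ => ?_
    rw [Cob.d_const_mul (fun B _ g x => hb.const B g x i), Cob.mapRing_d hι]
  rw [h1, map_eq_sum hb] at hdy
  have h3 := congrFun (hb.uniq_cob _ _ hdy) i₀
  rw [if_pos rfl] at h3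
  exact ⟨Cob.pr N s w (c i₀), Cob.isWt_pr w _, by rw [← Cob.pr_d, h3, Cob.pr_eq_self hw]⟩

end Basis

end DN

section Tower

variable {p n : ℕ} [Fact p.Prime] {G : Type} [Group G] [TopologicalSpace G]
  [IsTopologicalGroup G] [CompactSpace G]

theorem tbd_of_proBd (X : TTower p n G) (w : ℤ) (s : ℕ)
    (h : ProBd G (X.M w) (fun hj => X.f w hj) s) : TBd (I.towerN p n w) s := by
  obtain ⟨N, hN⟩ := h
  refine ⟨N, fun j => ?_⟩
  obtain ⟨j', hj, hM⟩ := hN j
  refine ⟨j', hj, fun z hz => ?_⟩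
  have hw : ∀ i, Cob.IsWt w (tval (z i)) := fun i =>
    (show Cob.wt (NN p n (j' + 1)) s w from z i).2
  have hd : ∀ i, Cob.d s (tval (z i)) = 0 := fun i => congrArg Subtype.val (hz i)
  have hd' : ∀ i, Cob.d s (Cob.mapRing (X.ι j') s (tval (z i))) = 0 := fun i => by
    rw [← Cob.mapRing_d (X.ι_law j'), hd, map_zero]
  have key : ∀ a b, Cob.mapRing (X.red hj) s
      (Cob.mapRing (X.ι j') s (tval (z a)) - Cob.mapRing (X.ι j') s (tval (z b))) =
      Cob.mapRing (X.ι j) s (tval ((I.towerN p n w).res s hj (z a - z b))) := by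
    intro a b
    rw [← map_sub, Cob.mapRing_mapRing, X.ι_red hj, ← Cob.mapRing_mapRing, towerN_res]
    rfl
  cases s with
  | zero =>
    obtain ⟨a, b, hab, h1⟩ := hM.zero (fun i => (⟨⟨Cob.mapRing (X.ι j') 0 (tval (z i)),
      Cob.IsWt.mapRing (X.ι_law j') (hw i)⟩, hd' i⟩ : X.M w j'))
      (fun i g => Subtype.ext (Subtype.ext ((X.inv j').fix_cob _ g)))
    refine ⟨a, b, hab, tval_injective p n ?_⟩
    have h2 := congrArg (fun x : X.M w j => x.1.1) h1
    exact DN.map_eq_zero (X.inv j) _ ((key a b).symm.trans h2)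
  | succ s =>
    obtain ⟨a, b, hab, y, hy, -, hdy⟩ := DN.weight_bd (X.red_law hj) (X.red_smul hj) (X.hzero j)
      w s N hM (fun i => Cob.mapRing (X.ι j') (s + 1) (tval (z i)))
      (fun i γ => (X.inv j').fix_cob _ γ) (fun i => Cob.IsWt.mapRing (X.ι_law j') (hw i)) hd'
    obtain ⟨y', hy', hdy'⟩ := DN.retract (X.ι_law j) (X.inv j) _
      (show Cob.wt (NN p n (j + 1)) (s + 1) w from
        (I.towerN p n w).res (s + 1) hj (z a - z b)).2 y hy (hdy.trans (key a b))
    exact ⟨a, b, hab, (show Cob.wt (NN p n (j + 1)) s w from ⟨y', hy'⟩), tval_injective p n hdy'⟩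

end Tower

section LT

variable {p n : ℕ} [Fact p.Prime] {k : Type} [Field k]

theorem tbd_of_finG (D : LTD p n k) (h : FinG D) (w : ℤ) (s : ℕ) : TBd (I.towerN p n w) s := by
  have _ := D.finite
  refine tbd_of_proBd D.tower w s ?_
  obtain ⟨N, hN⟩ := h (-w) s
  refine ⟨N, fun j => ?_⟩
  obtain ⟨j', hj, hM⟩ := hN j
  refine ⟨j', hj, HMapBd.transport ((D.coPt j').primHom (D.isCo j') w D.GG)
    ((D.coPt j').primHom_bijective (D.isCo j') w) ((D.coPt j).primHom (D.isCo j) w D.GG)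
    (fun x => ?_) hM⟩
  exact (D.coPt j).primMap_primHom (D.coPt j') (D.redT hj) _ (D.redT_comp_inc hj)
    (D.map_redT_ser hj) (D.isCo j) (D.isCo j') (fun γ t => D.redT_smul hj γ t)
    (D.isLawHom_redT hj) w x

theorem proZero_of_not_dvd (hp : p ≠ 2) (hn : 1 ≤ n) (hd : ¬ (p - 1) ∣ n) (w : ℤ) (s : ℕ)
    (hs : n * n ≤ s) : (I.towerN p n w).ProZero s := by
  obtain ⟨D⟩ := LTD.exists_galoisField p n (by omega)
  have _ := D.finite
  have _ := D.charP
  have _ := D.H.comm
  refine D.tower.proZero w s fun j => ⟨j, le_rfl, HZero.hmapZero ?_ _⟩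
  exact D.honda.hZero_sq CV hp hn D.card hd (D.tower.M w j) (D.tower.p_smul w j) (s + 1)
    (by omega)

end LT

end Vale.Agent.P261Z.T1
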