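import Vale.Agent.P261Z.T1.Padic
import Vale.Agent.P251.Z.WitChase
import Vale.Agent.P251.Z.KosMoore
import Vale.Agent.P251.Z.Statement
import Vale.Agent.P251.S.Loc

/-!
# P261, block T1: the last step

* `pcompl_of_local`: maps into an object which is local for `C`, `p ^ 2 = 0` on `C`, form a derived
  `p`-complete group;
* `finModP_of_triangle`: `[A, Y] / p` is finite if `[A, Y / p]` is finite;
* `fg_of_finite`: if `π_t L (S / p)` is finite then `π_t L S` is a finitely generated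
  `ℤ_[p]`-module.
-/

open CategoryTheory MonoidalCategory Limits Pretriangulated

set_option linter.unusedSectionVars false

universe v u

namespace Vale.Agent.P261Z.T1

open Vale.Agent.P251 Vale.Agent.P251.T Vale.Agent.P251.S

variable {T : Type u} [Category.{v} T] [Preadditive T] [HasZeroObject T]
  [HasShift T ℤ] [∀ n : ℤ, (shiftFunctor T n).Additive] [Pretriangulated T]
  [MonoidalCategory T] [SymmetricCategory T] [TensorTriangulated T]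

/-- `p ^ 2 = 0` on the cofibre of `p`. -/
theorem sq_smul_cofibre {p : ℤ} {Y C : T} {i : Y ⟶ C} {δ : C ⟶ Y⟦(1 : ℤ)⟧}
    (hC : Triangle.mk (p • 𝟙 Y) i δ ∈ distTriang T) : p • p • 𝟙 C = 0 := by
  have h1 : (p • 𝟙 Y) ≫ i = 0 := comp_distTriang_mor_zero₁₂ _ hC
  have h2 : δ ≫ (p • 𝟙 Y)⟦(1 : ℤ)⟧' = 0 := comp_distTriang_mor_zero₃₁ _ hC
  rw [Preadditive.zsmul_comp, Category.id_comp] at h1
  rw [Functor.map_zsmul, CategoryTheory.Functor.map_id, Preadditive.comp_zsmul,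
    Category.comp_id] at h2
  obtain ⟨g, hg⟩ : ∃ g : Y⟦(1 : ℤ)⟧ ⟶ C, p • 𝟙 C = δ ≫ g :=
    Triangle.yoneda_exact₃ _ hC (p • 𝟙 C) (by
      change i ≫ (p • 𝟙 C) = 0
      rw [Preadditive.comp_zsmul, Category.comp_id, h1])
  rw [hg, ← Preadditive.zsmul_comp, h2, zero_comp]

theorem isIso_one_sub {p : ℤ} {C : T} (hC : p • p • 𝟙 C = 0) {X : T} (s : X ⟶ X) :
    IsIso (C ◁ (𝟙 X - p • s)) := by
  have h1 : C ◁ (𝟙 X - p • s) = 𝟙 (C ⊗ X) - p • (C ◁ s) := by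
    change (tensorLeft C).map (𝟙 X - p • s) = _
    rw [Functor.map_sub, Functor.map_zsmul, CategoryTheory.Functor.map_id]
    rfl
  have h2 : p • p • 𝟙 (C ⊗ X) = 0 := by
    have h3 := congrArg (fun f => (tensorRight X).map f) hC
    simp only [Functor.map_zsmul, CategoryTheory.Functor.map_id, Functor.map_zero] at h3
    exact h3
  have h4 : (p • (C ◁ s)) ≫ (p • (C ◁ s)) = 0 := by
    have h5 : (p • (C ◁ s)) ≫ (p • (C ◁ s)) = (p • p • 𝟙 (C ⊗ X)) ≫ (C ◁ s) ≫ (C ◁ s) := by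
      simp only [Preadditive.zsmul_comp, Preadditive.comp_zsmul, Category.id_comp]
    rw [h5, h2, zero_comp]
  rw [h1]
  refine ⟨𝟙 _ + p • (C ◁ s), ?_, ?_⟩
  · rw [Preadditive.sub_comp, Preadditive.comp_add, Preadditive.comp_add, h4]
    simp
  · rw [Preadditive.add_comp, Preadditive.comp_sub, Preadditive.comp_sub, h4]
    simp

/-- Maps into a `C`-local object, `p ^ 2 = 0` on `C`, form a derived `p`-complete group. -/
theorem pcompl_of_local [HasCoproducts.{0} T] {p : ℕ} {C Y : T}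
    (hC : (p : ℤ) • (p : ℤ) • 𝟙 C = 0) (hY : IsLocal C Y) (A : T) : PCompl p (A ⟶ Y) := by
  let X : ℕ → T := fun _ => A
  let s : ∐ X ⟶ ∐ X := Sigma.desc fun n => Sigma.ι X (n + 1)
  have hb := hY.precomp_bijective _ (isIso_one_sub hC s)
  have key : ∀ (g : ∐ X ⟶ Y) (k : ℕ), Sigma.ι X k ≫ (𝟙 (∐ X) - (p : ℤ) • s) ≫ g =
      Sigma.ι X k ≫ g - (p : ℤ) • (Sigma.ι X (k + 1) ≫ g) := by
    intro g k
    rw [Preadditive.sub_comp, Preadditive.comp_sub, Category.id_comp, Preadditive.zsmul_comp,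
      Preadditive.comp_zsmul, Sigma.ι_desc_assoc]
  intro a
  obtain ⟨g, hg⟩ := hb.2 (Sigma.desc a)
  have hg' : (𝟙 (∐ X) - (p : ℤ) • s) ≫ g = Sigma.desc a := hg
  refine ⟨fun k => Sigma.ι X k ≫ g, fun k => ?_, fun b hb' => ?_⟩
  · have h1 := key g k
    rw [hg', Sigma.ι_desc] at h1
    exact eq_add_of_sub_eq h1.symm
  · have h2 : Sigma.desc (f := X) b = g := by
      apply hb.1
      change (𝟙 (∐ X) - (p : ℤ) • s) ≫ Sigma.desc (f := X) b = (𝟙 (∐ X) - (p : ℤ) • s) ≫ g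
      rw [hg']
      apply Sigma.hom_ext
      intro k
      rw [key, Sigma.ι_desc, Sigma.ι_desc, Sigma.ι_desc]
      exact sub_eq_of_eq_add (hb' k)
    funext k
    rw [← h2, Sigma.ι_desc]

/-- `[A, Y] / p` is finite if `[A, Y / p]` is finite. -/
theorem finModP_of_triangle {p : ℕ} {Y C : T} {i : Y ⟶ C} {δ : C ⟶ Y⟦(1 : ℤ)⟧}
    (hC : Triangle.mk ((p : ℤ) • 𝟙 Y) i δ ∈ distTriang T) (A : T) [Finite (A ⟶ C)] :
    FinModP p (A ⟶ Y) := by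
  obtain ⟨R, -, hR, hR'⟩ := (Set.toFinite ((fun x : A ⟶ Y => x ≫ i) '' Set.univ)
    ).exists_subset_finite_image_eq subset_rfl
  refine ⟨R, hR, fun x => ?_⟩
  have h1 : x ≫ i ∈ (fun x : A ⟶ Y => x ≫ i) '' R := by
    rw [hR']
    exact ⟨x, trivial, rfl⟩
  obtain ⟨a, ha, h2⟩ := h1
  obtain ⟨y, hy⟩ : ∃ y : A ⟶ Y, x - a = y ≫ ((p : ℤ) • 𝟙 Y) :=
    Triangle.coyoneda_exact₂ _ hC (x - a) (by
      change (x - a) ≫ i = 0
      rw [Preadditive.sub_comp, sub_eq_zero]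
      exact h2.symm)
  refine ⟨a, ha, y, ?_⟩
  rw [Preadditive.comp_zsmul, Category.comp_id] at hy
  rw [← hy, add_sub_cancel]

theorem FinModP.of_iso {p : ℕ} {A Y Y' : T} (e : Y ≅ Y') (h : FinModP p (A ⟶ Y)) :
    FinModP p (A ⟶ Y') := by
  obtain ⟨R, hR, h⟩ := h
  refine ⟨(fun x => x ≫ e.hom) '' R, hR.image _, fun x => ?_⟩
  obtain ⟨a, ha, y, hy⟩ := h (x ≫ e.inv)
  refine ⟨_, ⟨a, ha, rfl⟩, y ≫ e.hom, ?_⟩
  rw [← Preadditive.zsmul_comp, ← Preadditive.add_comp, ← hy, Category.assoc, Iso.inv_hom_id,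
    Category.comp_id]

/-- Localizations only depend on the Bousfield class. -/
theorem loc_iso {K K₀ : T} (F : LocFunctor K₀) (hK : ∀ W, Acyclic K W ↔ Acyclic K₀ W) {X Y : T}
    {f : X ⟶ Y} (hf : Z.IsLoc K f) : Nonempty (F.L.obj X ≅ Y) := by
  obtain ⟨W, g, d, hΔ⟩ := distinguished_cocone_triangle f
  have h1 : IsIso (K₀ ◁ f) :=
    (acyclic₃_iff_isIso₁ hΔ).1 ((hK _).1 ((acyclic₃_iff_isIso₁ hΔ).2 hf.1))
  let B : BLoc K₀ X := ⟨F.L.obj X, F.unit.app X, F.isIso X, F.isLocal X⟩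
  let B' : BLoc K₀ X := ⟨Y, f, h1, Z.isLocal_mono (fun W hW => (hK W).2 hW) hf.2⟩
  exact ⟨B.iso B'⟩

/-- **The last step.** -/
theorem fg_of_finite [HasCoproducts.{0} T] {p : ℕ} [Fact p.Prime] {C : T} {i : 𝟙_ T ⟶ C}
    {δ : C ⟶ (𝟙_ T)⟦(1 : ℤ)⟧} (hC : Triangle.mk ((p : ℤ) • 𝟙 (𝟙_ T)) i δ ∈ distTriang T)
    {K K₀ : T} (F : LocFunctor K₀) (hK : ∀ W, Acyclic K W ↔ Acyclic K₀ W)
    (hCK : ∀ W, Acyclic C W → Acyclic K₀ W) {Y : T} {f : 𝟙_ T ⟶ Y} (hf : Z.IsLoc K f)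
    (A : T) [Finite (A ⟶ F.L.obj C)] : FG p (A ⟶ Y) := by
  obtain ⟨e⟩ := loc_iso F hK hf
  refine fg_of (pcompl_of_local (sq_smul_cofibre hC)
    (Z.isLocal_mono (fun W hW => (hK W).2 (hCK W hW)) hf.2) A) (FinModP.of_iso e ?_)
  have h1 := F.L.map_distinguished _ hC
  have h2 : F.L.map ((p : ℤ) • 𝟙 (𝟙_ T)) = (p : ℤ) • 𝟙 (F.L.obj (𝟙_ T)) := by
    rw [Functor.map_zsmul, CategoryTheory.Functor.map_id]
  have h3 : Triangle.mk ((p : ℤ) • 𝟙 (F.L.obj (𝟙_ T))) (F.L.map i)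
      (F.L.map δ ≫ (F.L.commShiftIso (1 : ℤ)).hom.app (𝟙_ T)) ∈ distTriang T := by
    rw [← h2]
    exact h1
  exact finModP_of_triangle h3 A

/-- The last step for the Koszul object of height `h ≥ 1`. -/
theorem fg_of_finite_kos [HasCoproducts.{0} T] {p : ℕ} [Fact p.Prime] {C : T} {i : 𝟙_ T ⟶ C}
    {δ : C ⟶ (𝟙_ T)⟦(1 : ℤ)⟧} (hC : Triangle.mk ((p : ℤ) • 𝟙 (𝟙_ T)) i δ ∈ distTriang T)
    {P : T} [MonObj P] {h : ℕ} {v : ℕ → (𝟙_ T ⟶ P)} (Dk : KosData P (p : ℤ) h v) (hh : 1 ≤ h)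
    (F : LocFunctor Dk.K) {K : T} (hK : ∀ W, Acyclic K W ↔ Acyclic Dk.K W)
    {Y : T} {f : 𝟙_ T ⟶ Y} (hf : Z.IsLoc K f) (A : T) [Finite (A ⟶ F.L.obj C)] :
    FG p (A ⟶ Y) :=
  fg_of_finite hC F hK (fun _ hW => Z.acyclic_kos_of_moore Dk hh hC hW) hf A

end Vale.Agent.P261Z.T1
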