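import Vale.Agent.P261Z.T1.Top
import Vale.Agent.P261Z.T1.Last
import Vale.Agent.P261Z.T1.DescN
import Vale.Agent.P251.St.Result2
import Vale.Agent.P251.Z.Final
import Vale.Agent.P251.M.BGlueD

/-!
# P261, block T1: stage 1

* `fg_of_grOut`: finite generation from `GrOut`, the comparison of Bousfield classes, bounded
  stable images and a vanishing line (no assumption on `p`);
* `s1Z`, `s1`: for `p` odd and `(p - 1) ∤ n`, `FinG D` implies that `L_{K(n)} S` is of finite type.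
-/

open CategoryTheory MonoidalCategory Limits Pretriangulated MonObj

set_option linter.unusedSectionVars false

universe v u

namespace Vale.Agent.P261Z.T1

open Vale.Agent.P251 Vale.Agent.P251.T Vale.Agent.P251.S Vale.Agent.P251.I Vale.Agent.P251.M
  Vale.Agent.P251.F

section Z

variable {T : Type u} [Category.{v} T] [Preadditive T] [HasZeroObject T]
    [HasShift T ℤ] [∀ n : ℤ, (shiftFunctor T n).Additive] [Pretriangulated T] [IsTriangulated T]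
    [MonoidalCategory T] [SymmetricCategory T] [TensorTriangulated T] [MonoidalClosed T]
    [HasCoproducts.{0} T] [HasProducts.{0} T] [StableCat T]

theorem fg_of_grOut (D : MUData T) (U : UnitCof D.R) {p n : ℕ} [Fact p.Prime] (hn : 1 ≤ n)
    {C : T} {i : 𝟙_ T ⟶ C} {δ : C ⟶ (𝟙_ T)⟦(1 : ℤ)⟧}
    (hC : Triangle.mk ((p : ℤ) • 𝟙 (𝟙_ T)) i δ ∈ distTriang T) {v : ℕ → (𝟙_ T ⟶ D.P)}
    (Dk : KosData D.P (p : ℤ) n v) (F : LocFunctor Dk.K) (G : GrOut D U p n i F)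
    (hb : ∀ w s, TBd (towerN p n w) s) {s₀ : ℕ}
    (hz : ∀ w s, s₀ ≤ s → (towerN p n w).ProZero s) {K : T}
    (hK : ∀ W, Acyclic K W ↔ Acyclic Dk.K W) {Y : T} {f : 𝟙_ T ⟶ Y} (hf : Z.IsLoc K f) (t : ℤ) :
    FG p ((𝟙_ T)⟦t⟧ ⟶ Y) := by
  have := finite_of_grOut D U Dk F G hb hz t
  exact fg_of_finite_kos hC Dk hn F hK hf _

theorem s1Z [LocallySmall.{0} T] (S : SpaceFunctor T) {p n : ℕ} [Fact p.Prime] (hp : p ≠ 2)
    (hn : 1 ≤ n) (hd : ¬ (p - 1) ∣ n) (hb : ∀ w s, TBd (towerN p n w) s) {K : T} [MonObj K]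
    (hK : Z.IsMorava S p n K) {Y : T} {f : 𝟙_ T ⟶ Y} (hf : Z.IsLoc K f) (t : ℤ) :
    FG p ((𝟙_ T)⟦t⟧ ⟶ Y) := by
  obtain ⟨D, H⟩ := M.MU_univ T S (M.lineIso S)
  obtain ⟨U⟩ := exists_unitCof D.R
  obtain ⟨C, i, δ, hC⟩ := distinguished_cocone_triangle ((p : ℤ) • 𝟙 (𝟙_ T))
  obtain ⟨Dk⟩ := exists_kosData D.P (p : ℤ) n (D.vs p)
  obtain ⟨F⟩ := Z.nonempty_locFunctor' Dk.K
  obtain ⟨m, rfl⟩ : ∃ m, n = m + 1 := ⟨n - 1, by omega⟩
  obtain ⟨_, o, hK⟩ := hK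
  exact fg_of_grOut D U hn hC Dk F (grOut D U hp hn hC Dk F) hb
    (proZero_of_not_dvd hp hn hd) (fun W => ⟨Z.kos_of_acyclic H hp hn hC o hK Dk,
      Z.acyclic_of_kos H hn o hK Dk⟩) hf t

end Z

/-- **Stage 1**: for `p` odd and `(p - 1) ∤ n` the `K(n)`-local sphere is of finite type, given the
finiteness of `H^*(G; E_*/p)`. -/
theorem s1 {p n : ℕ} [Fact p.Prime] (hp : p ≠ 2) (hn : 1 ≤ n) (hd : ¬ (p - 1) ∣ n)
    {k : Type} [Field k] (D : LTD p n k) (hD : FinG D) (T : St.SHCat) (S : St.Susp T)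
    (K : St.RingSp T) (hK : St.IsMorava S K p n) (Y : T.C) (f : St.SHCat.Hom T.one Y)
    (hf : St.IsLoc K.obj f) (t : ℤ) : FG p (St.SHCat.Hom (St.sphere T t) Y) := by
  have := locallySmall_self.{0} T.C
  exact s1Z S.toSpaceFunctor hp hn hd (tbd_of_finG D hD) (St.isMorava_of S K hK)
    ((St.isLoc_iff K.obj f).1 hf) t

end Vale.Agent.P261Z.T1
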