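import Vale.Agent.P261Z.T1.Main
import Vale.Agent.P261Z.T3.KCmp

/-!
# P261, block T1: the statement of finite type for Morava `K`-theory modules

* `FT S p n` : every `K(n)`-localisation of the sphere has finitely generated `p`-adic homotopy;
* `lastK` : `FT S p n` follows from the finiteness of `π_* L (S/p)` for one Koszul object;
* `s1K` : stage 1 (`p` odd, `(p - 1) ∤ n`) in this form.
-/

open CategoryTheory MonoidalCategory Limits Pretriangulated MonObj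

namespace Vale.Agent.P261Z.T1

open Vale.Agent.P251 Vale.Agent.P251.T Vale.Agent.P251.S Vale.Agent.P251.I Vale.Agent.P251.M
  Vale.Agent.P251.F

/-- The `K(n)`-local sphere is of finite type: for every Morava `K`-theory `K` of height `n` at `p`
and every `K`-localisation `S ⟶ Y`, each `π_t Y` is a finitely generated `ℤ_p`-module. -/
def FT {T : St.SHCat} (S : St.Susp T) (p n : ℕ) [Fact p.Prime] : Prop :=
  ∀ K : T.C, Vale.Agent.P261Z.St.IsK S p n K →
    ∀ (Y : T.C) (f : St.SHCat.Hom T.one Y), St.IsLoc K f →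
      ∀ t : ℤ, FG p (St.SHCat.Hom (St.sphere T t) Y)

/-- Finite type from the finiteness of the homotopy of `L (S/p)`. -/
theorem lastK {T : St.SHCat} {S : St.Susp T} {D : MUData T.C}
    (hD : MUUniv (M.lineIso S.toSpaceFunctor) D) {p n : ℕ} [Fact p.Prime] (hp : T3.MUAt D p)
    (hn : 1 ≤ n) {C : T.C} {i : 𝟙_ T.C ⟶ C} {δ : C ⟶ (𝟙_ T.C)⟦(1 : ℤ)⟧}
    (hC : Triangle.mk ((p : ℤ) • 𝟙 (𝟙_ T.C)) i δ ∈ distTriang T.C)
    (Dk : KosData D.P (p : ℤ) n (D.vs p)) (F : LocFunctor Dk.K)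
    (hfin : ∀ t : ℤ, Finite ((𝟙_ T.C)⟦t⟧ ⟶ F.L.obj C)) : FT S p n := by
  intro K hK Y f hf t
  have := hfin t
  exact fg_of_finite_kos hC Dk hn F (T3.isK_acyclic_iff hD hp hn hK Dk)
    ((St.isLoc_iff K f).1 hf) _

/-- Finite type from `GrOut`, bounded stable images and a vanishing line. -/
theorem ft_of_grOut {T : St.SHCat} {S : St.Susp T} {D : MUData T.C}
    (hD : MUUniv (M.lineIso S.toSpaceFunctor) D) {p n : ℕ} [Fact p.Prime] (hp : T3.MUAt D p)
    (hn : 1 ≤ n) (U : UnitCof D.R) {C : T.C} {i : 𝟙_ T.C ⟶ C} {δ : C ⟶ (𝟙_ T.C)⟦(1 : ℤ)⟧}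
    (hC : Triangle.mk ((p : ℤ) • 𝟙 (𝟙_ T.C)) i δ ∈ distTriang T.C)
    (Dk : KosData D.P (p : ℤ) n (D.vs p)) (F : LocFunctor Dk.K) (G : GrOut D U p n i F)
    (hb : ∀ w s, TBd (towerN p n w) s) {s₀ : ℕ}
    (hz : ∀ w s, s₀ ≤ s → (towerN p n w).ProZero s) : FT S p n :=
  lastK hD hp hn hC Dk F fun t => finite_of_grOut D U Dk F G hb hz t

/-- **Stage 1**: for `p` odd and `(p - 1) ∤ n` the `K(n)`-local sphere is of finite type, given the
finiteness of `H^*(G; E_*/p)`. -/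
theorem s1K {p n : ℕ} [Fact p.Prime] (hp : p ≠ 2) (hn : 1 ≤ n) (hd : ¬ (p - 1) ∣ n)
    {k : Type} [Field k] (D : LTD p n k) (hD : FinG D) (T : St.SHCat) (S : St.Susp T) :
    FT S p n := by
  have := locallySmall_self.{0} T.C
  obtain ⟨D', H⟩ := M.MU_univ T.C S.toSpaceFunctor (M.lineIso S.toSpaceFunctor)
  obtain ⟨U⟩ := exists_unitCof D'.R
  obtain ⟨C, i, δ, hC⟩ := distinguished_cocone_triangle ((p : ℤ) • 𝟙 (𝟙_ T.C))
  obtain ⟨Dk⟩ := exists_kosData D'.P (p : ℤ) n (D'.vs p)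
  obtain ⟨F⟩ := Z.nonempty_locFunctor' Dk.K
  exact ft_of_grOut H (T3.MUAt.of_odd D' hp) hn U hC Dk F (grOut D' U hp hn hC Dk F)
    (tbd_of_finG D hD) (proZero_of_not_dvd hp hn hd)

end Vale.Agent.P261Z.T1
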