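import Vale.Agent.P261Z.T1.Defs

/-!
# P261, block T1: derived `p`-complete groups

`fg_of`: a derived `p`-complete abelian group `A` with `A / p` finite has exactly one structure of
a `ℤ_[p]`-module, and it is finitely generated.
-/

namespace Vale.Agent.P261Z.T1

namespace PA

variable {p : ℕ} [hp : Fact p.Prime] {A : Type*} [AddCommGroup A]

theorem exists_digit (γ : ℤ_[p]) : ∃ (c : ℤ) (δ : ℤ_[p]), γ = c + p * δ := by
  have h := PadicInt.sub_zmodRepr_mem γ
  rw [PadicInt.maximalIdeal_eq_span_p, Ideal.mem_span_singleton] at h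
  obtain ⟨δ, hδ⟩ := h
  refine ⟨(PadicInt.zmodRepr γ : ℕ), δ, ?_⟩
  rw [← hδ]
  push_cast
  ring

theorem exists_digits (γ : ℤ_[p]) : ∃ (c : ℕ → ℤ) (g : ℕ → ℤ_[p]), g 0 = γ ∧
    ∀ k, g k = c k + p * g (k + 1) := by
  choose c δ h using exists_digit (p := p)
  refine ⟨fun k => c (δ^[k] γ), fun k => δ^[k] γ, rfl, fun k => ?_⟩
  beta_reduce
  rw [Function.iterate_succ_apply']
  exact h _

omit hp in
theorem uniq (h : PCompl p A) {a b b' : ℕ → A} (hb : ∀ k, b k = a k + (p : ℤ) • b (k + 1))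
    (hb' : ∀ k, b' k = a k + (p : ℤ) • b' (k + 1)) : b = b' := (h a).unique hb hb'

omit hp in
theorem eq_zero (h : PCompl p A) {b : ℕ → A} (hb : ∀ k, b k = (p : ℤ) • b (k + 1)) : b 0 = 0 := by
  have h1 : b = 0 := uniq h (a := 0) (fun k => by simpa using hb k) (fun k => by simp)
  rw [h1]; rfl

theorem map_digit (ψ : ℤ_[p] →+ A) (c : ℤ) (δ : ℤ_[p]) :
    ψ (c + p * δ) = c • ψ 1 + (p : ℤ) • ψ δ := by
  rw [map_add, ← map_zsmul, ← map_zsmul]
  simp

theorem hom_ext (h : PCompl p A) {ψ ψ' : ℤ_[p] →+ A} (h1 : ψ 1 = ψ' 1) : ψ = ψ' := by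
  ext1 γ
  obtain ⟨c, g, h0, hg⟩ := exists_digits γ
  have h2 : (fun k => ψ (g k)) = fun k => ψ' (g k) :=
    uniq h (a := fun k => c k • ψ 1) (fun k => by rw [← map_digit, ← hg])
      (fun k => by rw [h1, ← map_digit, ← hg])
  rw [← h0]
  exact congrFun h2 0

/-- `x = γ a` -/
def Rel (a : A) (γ : ℤ_[p]) (x : A) : Prop :=
  ∃ (c : ℕ → ℤ) (g : ℕ → ℤ_[p]) (b : ℕ → A), g 0 = γ ∧ b 0 = x ∧
    (∀ k, g k = c k + p * g (k + 1)) ∧ ∀ k, b k = c k • a + (p : ℤ) • b (k + 1)

theorem exists_rel (h : PCompl p A) (a : A) (γ : ℤ_[p]) : ∃ x, Rel a γ x := by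
  obtain ⟨c, g, h0, hg⟩ := exists_digits γ
  obtain ⟨b, hb, -⟩ := h (fun k => c k • a)
  exact ⟨b 0, c, g, b, h0, rfl, hg, hb⟩

theorem Rel.sub {a x y : A} {γ δ : ℤ_[p]} (h1 : Rel a γ x) (h2 : Rel a δ y) :
    Rel a (γ - δ) (x - y) := by
  obtain ⟨c, g, b, rfl, rfl, hg, hb⟩ := h1
  obtain ⟨c', g', b', rfl, rfl, hg', hb'⟩ := h2
  refine ⟨c - c', g - g', b - b', rfl, rfl, fun k => ?_, fun k => ?_⟩
  · simp only [Pi.sub_apply]
    rw [hg k, hg' k]
    push_cast
    ring
  · simp only [Pi.sub_apply]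
    rw [hb k, hb' k, sub_smul, smul_sub]
    abel

theorem Rel.eq_zero (h : PCompl p A) {a x : A} (h1 : Rel a (0 : ℤ_[p]) x) : x = 0 := by
  obtain ⟨c, g, b, h0, rfl, hg, hb⟩ := h1
  have hp0 : (p : ℤ_[p]) ≠ 0 := Nat.cast_ne_zero.2 hp.out.ne_zero
  have hint : ∀ k, ∃ r : ℤ, g k = r := by
    intro k
    induction k with
    | zero => exact ⟨0, by rw [h0]; simp⟩
    | succ k ih =>
      obtain ⟨r, hr⟩ := ih
      have h2 : ((r - c k : ℤ) : ℤ_[p]) = p * g (k + 1) := by
        push_cast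
        rw [← hr, hg k]
        ring
      have h3 : (p : ℤ) ^ 1 ∣ r - c k := by
        rw [← PadicInt.pow_p_dvd_int_iff, pow_one, h2]
        exact dvd_mul_right _ _
      rw [pow_one] at h3
      obtain ⟨r', hr'⟩ := h3
      refine ⟨r', mul_left_cancel₀ hp0 ?_⟩
      rw [← h2, hr']
      push_cast
      ring
  choose r hr using hint
  have hr0 : r 0 = 0 := by
    have := hr 0
    rw [h0] at this
    exact_mod_cast this.symm
  have hrec : ∀ k, r k = c k + p * r (k + 1) := by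
    intro k
    have := hg k
    rw [hr k, hr (k + 1)] at this
    exact_mod_cast this
  have h4 := PA.eq_zero h (b := fun k => b k - r k • a) (fun k => by
    rw [hb k, hrec k, add_smul, mul_smul, smul_sub]
    abel)
  simpa [hr0] using h4

theorem Rel.unique (h : PCompl p A) {a x y : A} {γ : ℤ_[p]} (h1 : Rel a γ x) (h2 : Rel a γ y) :
    x = y := by
  have h3 := h1.sub h2
  rw [sub_self] at h3
  exact sub_eq_zero.1 (h3.eq_zero h)

theorem rel_one (a : A) : Rel a (1 : ℤ_[p]) a := by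
  refine ⟨fun k => if k = 0 then 1 else 0, fun k => if k = 0 then 1 else 0,
    fun k => if k = 0 then a else 0, by simp, by simp, fun k => ?_, fun k => ?_⟩
  · by_cases hk : k = 0 <;> simp [hk]
  · by_cases hk : k = 0 <;> simp [hk]

theorem exists_hom (h : PCompl p A) (a : A) : ∃ ψ : ℤ_[p] →+ A, ψ 1 = a := by
  choose f hf using exists_rel h a
  refine ⟨AddMonoidHom.ofMapSub f fun γ δ => (hf _).unique h ((hf γ).sub (hf δ)), ?_⟩
  exact (hf 1).unique h (rel_one a)

theorem exists_module (h : PCompl p A) : Nonempty (Module ℤ_[p] A) := by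
  choose ψ hψ using exists_hom h
  let _ : SMul ℤ_[p] A := ⟨fun γ a => ψ a γ⟩
  refine ⟨Module.ofMinimalAxioms (fun γ a b => ?_) (fun γ δ a => map_add (ψ a) γ δ)
    (fun γ δ a => ?_) (fun a => hψ a)⟩
  · have h1 : ψ (a + b) = ψ a + ψ b := hom_ext h (by
      rw [AddMonoidHom.add_apply, hψ, hψ, hψ])
    exact congrArg (fun φ : ℤ_[p] →+ A => φ γ) h1
  · have h1 : (ψ a).comp (AddMonoidHom.mulRight δ) = ψ (ψ a δ) := hom_ext h (by
      rw [hψ]
      simp)
    exact congrArg (fun φ : ℤ_[p] →+ A => φ γ) h1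

theorem module_unique (h : PCompl p A) (m m' : Module ℤ_[p] A) : m' = m := by
  refine Module.ext' m' m fun γ a => ?_
  let ψ : ℤ_[p] →+ A := letI := m; (smulAddHom ℤ_[p] A).flip a
  let ψ' : ℤ_[p] →+ A := letI := m'; (smulAddHom ℤ_[p] A).flip a
  have h1 : ψ' = ψ := hom_ext h (by
    have e1 : ψ 1 = a := letI := m; one_smul ℤ_[p] a
    have e2 : ψ' 1 = a := letI := m'; one_smul ℤ_[p] a
    rw [e1, e2])
  exact congrArg (fun φ : ℤ_[p] →+ A => φ γ) h1

theorem exists_padic (c : ℕ → ℤ_[p]) : ∃ g : ℕ → ℤ_[p], ∀ k, g k = c k + p * g (k + 1) := by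
  have hs : ∀ k, Summable fun m => (p : ℤ_[p]) ^ m * c (k + m) := by
    intro k
    have h1 : (0 : ℝ) ≤ (p : ℝ)⁻¹ := by positivity
    have h2 : (p : ℝ)⁻¹ < 1 := inv_lt_one_of_one_lt₀ (by exact_mod_cast hp.out.one_lt)
    refine Summable.of_norm_bounded (summable_geometric_of_lt_one h1 h2) fun m => ?_
    rw [norm_mul, norm_pow, PadicInt.norm_p]
    exact mul_le_of_le_one_right (by positivity) (PadicInt.norm_le_one _)
  refine ⟨fun k => ∑' m, (p : ℤ_[p]) ^ m * c (k + m), fun k => ?_⟩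
  beta_reduce
  rw [(hs k).tsum_eq_zero_add, pow_zero, one_mul, add_zero, ← (hs (k + 1)).tsum_mul_left]
  congr 1
  refine tsum_congr fun m => ?_
  rw [show k + (m + 1) = k + 1 + m by ring]
  ring

theorem finite (h : PCompl p A) (hf : FinModP p A) [Module ℤ_[p] A] : Module.Finite ℤ_[p] A := by
  classical
  obtain ⟨S, hS, hx⟩ := hf
  choose a ha y hy using hx
  refine ⟨⟨hS.toFinset, ?_⟩⟩
  rw [eq_top_iff]
  intro x _
  choose g hg using fun s : A =>
    exists_padic (p := p) (fun k => if a (y^[k] x) = s then 1 else 0)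
  have h1 : (fun k => y^[k] x) = fun k => ∑ s ∈ hS.toFinset, g s k • s := by
    refine uniq h (a := fun k => a (y^[k] x)) (fun k => ?_) (fun k => ?_)
    · rw [Function.iterate_succ_apply']
      exact hy _
    · have e1 : ∀ s : A, g s k • s = (if a (y^[k] x) = s then s else 0) +
          (p : ℤ) • (g s (k + 1) • s) := by
        intro s
        rw [hg s k, add_smul, mul_smul, natCast_zsmul, Nat.cast_smul_eq_nsmul]
        split_ifs <;> simp
      simp only [e1, Finset.sum_add_distrib, Finset.sum_ite_eq]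
      rw [if_pos (hS.mem_toFinset.2 (ha _)), Finset.smul_sum]
  have h2 : x = ∑ s ∈ hS.toFinset, g s 0 • s := congrFun h1 0
  rw [h2]
  exact Submodule.sum_mem _ fun s hs => Submodule.smul_mem _ _ (Submodule.subset_span hs)

end PA

/-- A derived `p`-complete group with finite reduction modulo `p` is a finitely generated
`ℤ_[p]`-module in exactly one way. -/
theorem fg_of {p : ℕ} [Fact p.Prime] {A : Type*} [AddCommGroup A] (h : PCompl p A)
    (hf : FinModP p A) : FG p A := by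
  obtain ⟨m⟩ := PA.exists_module h
  exact ⟨m, fun m' => PA.module_unique h m m', PA.finite h hf⟩

end Vale.Agent.P261Z.T1
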