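import Vale.Agent.P261Z.T1.Tower
import Vale.Agent.P251.S.Final2

/-!
# P261, block T1: finiteness of the homotopy groups of `L M`

* `CobFin U Y F P s t`: the cohomology of the cobar complex `Hom (P⟦t⟧, F (Q (s + 1) Y))` is finite
  in degree `s`; `e2fin_of_cobFin`, `cobFin_of_model`, `e2fin_of_model`;
* `finite_of_e2`: odd vanishing, a vanishing line and finite `E_2` give finite `π_t L M`, for any
  coefficient object `M`;
* `finite_of_model`: the same from models of the cobar complexes by towers;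
* `finite_of_grOut`: the case `M = S / p`.
-/

open CategoryTheory MonoidalCategory Limits Pretriangulated MonObj

set_option linter.unusedSectionVars false

universe v u v' u' w

namespace Vale.Agent.P261Z.T1

open Vale.Agent.P251 Vale.Agent.P251.T Vale.Agent.P251.S Vale.Agent.P251.I Vale.Agent.P251.M

section E2

variable {T : Type u} [Category.{v} T] [Preadditive T] [HasZeroObject T] [HasShift T ℤ]
  [∀ n : ℤ, (shiftFunctor T n).Additive] [Pretriangulated T] [MonoidalCategory T]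
  [SymmetricCategory T] [TensorTriangulated T]
  {D : Type u'} [Category.{v'} D] [Preadditive D] [HasZeroObject D] [HasShift D ℤ]
  [∀ n : ℤ, (shiftFunctor D n).Additive] [Pretriangulated D]
  {R : T} [MonObj R] (U : UnitCof R) (Y : T) (F : T ⥤ D) [F.CommShift ℤ]
  [F.IsTriangulated] (P : D)

/-- The differential of the cobar complex. -/
noncomputable def cobD (t : ℤ) (s : ℕ) :
    (P⟦t⟧ ⟶ F.obj (U.cobar.Q (s + 1) Y)) →+ (P⟦t⟧ ⟶ F.obj (U.cobar.Q (s + 2) Y)) :=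
  AddMonoidHom.mk' (fun x => x ≫ F.map (U.cobar.d (s + 1) Y)) (fun _ _ => Preadditive.add_comp ..)

/-- The coboundaries of the cobar complex. -/
noncomputable def cobB (t : ℤ) : ∀ s : ℕ, AddSubgroup (P⟦t⟧ ⟶ F.obj (U.cobar.Q (s + 1) Y))
  | 0 => ⊥
  | s + 1 => (cobD U Y F P t s).range

/-- The cohomology of the cobar complex in degree `s` and internal degree `t` is finite. -/
def CobFin (s : ℕ) (t : ℤ) : Prop := FinMod {x | cobD U Y F P t s x = 0} (cobB U Y F P t s)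

variable {U Y F P}

theorem e2fin_of_cobFin {s : ℕ} {m t : ℤ} (hm : m + (s : ℤ) = t) (h : CobFin U Y F P s t) :
    E2Fin (((U.tow Y).map F).couple P) s m := by
  obtain ⟨N, hN⟩ := h.pigeon
  refine finMod_of_pigeon N fun z hz => ?_
  choose c hc hcz using fun i => U.exists_cocycle_qE Y F P hm (z i) (hz i)
  obtain ⟨a, b, hab, h1⟩ := hN c hc
  refine ⟨a, b, hab, ?_⟩
  rw [← hcz a, ← hcz b, ← map_sub]
  cases s with
  | zero =>
    have h2 : c a - c b = 0 := h1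
    rw [h2, map_zero]
    exact zero_mem _
  | succ s =>
    obtain ⟨c', hc'⟩ := h1
    have h2 : (m + 1) + (s : ℤ) = t := by push_cast at hm; omega
    rw [← hc']
    exact ⟨U.qE Y F P h2 c', U.d_qE Y F P rfl h2 hm c'⟩

theorem cobFin_of_zero {s : ℕ} {t : ℤ}
    (h : ∀ x : P⟦t⟧ ⟶ F.obj (U.cobar.Q (s + 1) Y), x = 0) : CobFin U Y F P s t :=
  ⟨{0}, Set.finite_singleton 0, fun x hx => by
    rw [Set.mem_singleton_iff.1 hx]
    exact map_zero (cobD U Y F P t s), fun x _ => ⟨0, rfl, by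
    rw [h x, sub_zero]
    exact zero_mem _⟩⟩

theorem cobFin_of_model {w : ℤ} {Tw : TowerCx.{w}} (Φ : U.CobModel Y F P w Tw)
    (hsurj : ∀ s j, Function.Surjective (Tw.r s j)) (hb : ∀ s, TBd Tw s) (s : ℕ) :
    CobFin U Y F P s (2 * w) := by
  have hd : ∀ s x, Φ.φ (s + 1) (cobD U Y F P (2 * w) s x) = limD Tw s (Φ.φ s x) := fun s x =>
    Subtype.ext (funext fun j => Φ.φ_d s x j)
  obtain ⟨N, hN⟩ := (lim_fin Tw hsurj hb s).pigeon
  refine finMod_of_pigeon N fun c hc => ?_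
  obtain ⟨a, b, hab, h1⟩ := hN (fun i => Φ.φ s (c i)) (fun i => by
    have h2 : cobD U Y F P (2 * w) s (c i) = 0 := hc i
    change limD Tw s (Φ.φ s (c i)) = 0
    rw [← hd, h2, map_zero])
  refine ⟨a, b, hab, ?_⟩
  rw [← map_sub] at h1
  cases s with
  | zero =>
    have h2 : Φ.φ 0 (c a - c b) = 0 := h1
    exact (AddEquiv.map_eq_zero_iff _).1 h2
  | succ s =>
    obtain ⟨y, hy⟩ := h1
    refine ⟨(Φ.φ s).symm y, (Φ.φ (s + 1)).injective ?_⟩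
    rw [hd, AddEquiv.apply_symm_apply, hy]

theorem e2fin_of_model {Tw : ℤ → TowerCx.{w}} (Φ : ∀ w, U.CobModel Y F P w (Tw w))
    (hodd : ∀ (s : ℕ) (t : ℤ), Odd t → ∀ x : P⟦t⟧ ⟶ F.obj (U.cobar.Q (s + 1) Y), x = 0)
    (hsurj : ∀ w s j, Function.Surjective ((Tw w).r s j)) (hb : ∀ w s, TBd (Tw w) s) (s : ℕ)
    (m : ℤ) : E2Fin (((U.tow Y).map F).couple P) s m := by
  rcases Int.even_or_odd (m + (s : ℤ)) with he | ho
  · obtain ⟨w, hw⟩ := he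
    exact e2fin_of_cobFin (by rw [hw]; ring) (cobFin_of_model (Φ w) (hsurj w) (hb w) s)
  · exact e2fin_of_cobFin rfl (cobFin_of_zero (hodd s _ ho))

theorem van_of_model {Tw : ℤ → TowerCx.{w}} (Φ : ∀ w, U.CobModel Y F P w (Tw w))
    (hodd : ∀ (s : ℕ) (t : ℤ), Odd t → ∀ x : P⟦t⟧ ⟶ F.obj (U.cobar.Q (s + 1) Y), x = 0)
    (hsurj : ∀ w s j, Function.Surjective ((Tw w).r s j)) {s₀ : ℕ}
    (hz : ∀ w s, s₀ ≤ s → (Tw w).ProZero s) (s : ℕ) (hs : s₀ + 1 ≤ s) (m : ℤ) :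
    (((U.tow Y).map F).couple P).Van s m := by
  obtain ⟨s, rfl⟩ : ∃ t, s = t + 1 := ⟨s - 1, by omega⟩
  rcases Int.even_or_odd (m + ((s + 2 : ℕ) : ℤ)) with he | ho
  · obtain ⟨w, hw⟩ := he
    exact (Φ w).van (by rw [hw]; ring) (hsurj w s) (hz w s (by omega)) (hz w (s + 1) (by omega))
  · intro b _
    refine ⟨0, ?_⟩
    rw [map_zero]
    exact (UnitCof.E_eq_zero_of_odd hodd (s + 1 + 1) m ho b).symm

end E2

variable {T : Type u} [Category.{v} T] [Preadditive T] [HasZeroObject T]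
    [HasShift T ℤ] [∀ n : ℤ, (shiftFunctor T n).Additive] [Pretriangulated T] [IsTriangulated T]
    [MonoidalCategory T] [SymmetricCategory T] [TensorTriangulated T] [MonoidalClosed T]
    [HasCoproducts.{0} T] [HasProducts.{0} T] [StableCat T]

/-- In the Adams type tower of `L (- ⊗ M)` the maps `i` vanish above the vanishing line. -/
theorem i_eq_zero (D : MUData T) (U : UnitCof D.R) {p : ℤ} {h : ℕ} {v : ℕ → (𝟙_ T ⟶ D.P)}
    (Dk : KosData D.P p h v) (F : LocFunctor Dk.K) (M : T)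
    (hodd : ∀ (s : ℕ) (t : ℤ), Odd t →
      ∀ x : (𝟙_ T)⟦t⟧ ⟶ (tensorRight M ⋙ F.L).obj (U.cobar.Q (s + 1) (𝟙_ T)), x = 0)
    (s₁ : ℕ) (hvan : ∀ s, s₁ ≤ s → ∀ m : ℤ,
      (((U.tow (𝟙_ T)).map (tensorRight M ⋙ F.L)).couple (𝟙_ T)).Van s m)
    (s : ℕ) (hs : s₁ + 1 ≤ s) (m : ℤ)
    (y : (((U.tow (𝟙_ T)).map (tensorRight M ⋙ F.L)).couple (𝟙_ T)).D (s + 1) m) :
    (((U.tow (𝟙_ T)).map (tensorRight M ⋙ F.L)).couple (𝟙_ T)).i s m y = 0 := by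
  obtain ⟨c, hc⟩ := built_finEven_RPS D
  obtain ⟨b, hKF⟩ := Dk.built_finEven hc
  exact (U.tow (𝟙_ T)).converge_coeff M F (U.whisker_tow_c _)
    (Dk.built_isRMul (built_isRMul_RPS D.R _)) hKF
    (fun s n hn => UnitCof.E_eq_zero_of_odd hodd s n (Int.odd_iff.2 hn)) s₁ hvan s hs m y

/-- **Finiteness for any coefficient object `M`.** -/
theorem finite_of_e2 (D : MUData T) (U : UnitCof D.R) {p : ℤ} {h : ℕ} {v : ℕ → (𝟙_ T ⟶ D.P)}
    (Dk : KosData D.P p h v) (F : LocFunctor Dk.K) (M : T)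
    (hodd : ∀ (s : ℕ) (t : ℤ), Odd t →
      ∀ x : (𝟙_ T)⟦t⟧ ⟶ (tensorRight M ⋙ F.L).obj (U.cobar.Q (s + 1) (𝟙_ T)), x = 0)
    (s₁ : ℕ) (hvan : ∀ s, s₁ ≤ s → ∀ m : ℤ,
      (((U.tow (𝟙_ T)).map (tensorRight M ⋙ F.L)).couple (𝟙_ T)).Van s m)
    (hfin : ∀ (s : ℕ) (m : ℤ),
      E2Fin (((U.tow (𝟙_ T)).map (tensorRight M ⋙ F.L)).couple (𝟙_ T)) s m)
    (t : ℤ) : Finite ((𝟙_ T)⟦t⟧ ⟶ F.L.obj M) := by
  have h1 := finite_D0 _ t (s₁ + 1) (fun s _ => hfin s t)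
    (i_eq_zero D U Dk F M hodd s₁ hvan (s₁ + 1) le_rfl t)
  let e : (((U.tow (𝟙_ T)).map (tensorRight M ⋙ F.L)).couple (𝟙_ T)).D 0 t ≃+
      ((𝟙_ T)⟦t⟧ ⟶ F.L.obj (𝟙_ T ⊗ M)) :=
    ((U.tow (𝟙_ T)).map (tensorRight M ⋙ F.L)).eD (𝟙_ T) (s := 0) (n := t) (t := t) (by simp)
  have h2 : Finite ((𝟙_ T)⟦t⟧ ⟶ F.L.obj (𝟙_ T ⊗ M)) := Finite.of_equiv _ e.toEquiv
  refine Finite.of_injective (fun x : (𝟙_ T)⟦t⟧ ⟶ F.L.obj M => x ≫ F.L.map (λ_ M).inv) ?_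
  intro x y hxy
  exact (cancel_mono (F.L.map (λ_ M).inv)).1 hxy

/-- Finiteness from models of the cobar complexes. -/
theorem finite_of_model (D : MUData T) (U : UnitCof D.R) {p : ℤ} {h : ℕ}
    {v : ℕ → (𝟙_ T ⟶ D.P)} (Dk : KosData D.P p h v) (F : LocFunctor Dk.K) (M : T)
    {Tw : ℤ → TowerCx.{w}}
    (Φ : ∀ w, U.CobModel (𝟙_ T) (tensorRight M ⋙ F.L) (𝟙_ T) w (Tw w))
    (hodd : ∀ (s : ℕ) (t : ℤ), Odd t →
      ∀ x : (𝟙_ T)⟦t⟧ ⟶ (tensorRight M ⋙ F.L).obj (U.cobar.Q (s + 1) (𝟙_ T)), x = 0)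
    (hsurj : ∀ w s j, Function.Surjective ((Tw w).r s j)) (hb : ∀ w s, TBd (Tw w) s) {s₀ : ℕ}
    (hz : ∀ w s, s₀ ≤ s → (Tw w).ProZero s) (t : ℤ) : Finite ((𝟙_ T)⟦t⟧ ⟶ F.L.obj M) :=
  finite_of_e2 D U Dk F M hodd (s₀ + 1) (van_of_model Φ hodd hsurj hz)
    (e2fin_of_model Φ hodd hsurj hb) t

/-- The case of the Moore object. -/
theorem finite_of_grOut (D : MUData T) (U : UnitCof D.R) {p h : ℕ} [Fact p.Prime] {C : T}
    {i : 𝟙_ T ⟶ C} {v : ℕ → (𝟙_ T ⟶ D.P)} (Dk : KosData D.P (p : ℤ) h v) (F : LocFunctor Dk.K)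
    (G : GrOut D U p h i F) (hb : ∀ w s, TBd (towerN p h w) s) {s₀ : ℕ}
    (hz : ∀ w s, s₀ ≤ s → (towerN p h w).ProZero s) (t : ℤ) :
    Finite ((𝟙_ T)⟦t⟧ ⟶ F.L.obj C) :=
  finite_of_model D U Dk F C G.model G.odd (towerN_r_surjective p h) hb hz t

end Vale.Agent.P261Z.T1
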